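import Mathlib
import Vale.Agent.Lib.P321.Defs
import Vale.Agent.Lib.P321.Thin
import Vale.Agent.Lib.P321.Finite
import Vale.Agent.Lib.P321.Length

namespace Vale.Agent.Results.P321.MonotoneComplexity

open Vale.Agent.Lib.P321
open scoped ENNReal NNReal

/-- **Monotonicity of the worst-case sample complexity of trace reconstruction.**
For deletion probabilities `q ≤ q' < 1` and every length `n`: the sample complexity `T_q(n)` is
attained (finitely many traces suffice), it is nondecreasing in the deletion probability,
`T_q(n) ≤ T_{q'}(n)`, and nondecreasing in the length, `T_q(n) ≤ T_q(n + 1)`. -/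
theorem result (q q' : ℝ≥0) (hqq' : q ≤ q') (hq' : q' < 1) (n : ℕ) :
    Suffices q n (sampleComplexity q n) ∧
      sampleComplexity q n ≤ sampleComplexity q' n ∧
      sampleComplexity q n ≤ sampleComplexity q (n + 1) := by
  have hq : q < 1 := lt_of_le_of_lt hqq' hq'
  refine ⟨?_, ?_, ?_⟩
  · exact Nat.sInf_mem (s := {m | Suffices q n m}) (exists_suffices q hq n)
  · have h1 : Suffices q' n (sampleComplexity q' n) :=
      Nat.sInf_mem (s := {m | Suffices q' n m}) (exists_suffices q' hq' n)
    exact Nat.sInf_le (suffices_mono q q' hqq' hq'.le n _ h1)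
  · have h1 : Suffices q (n + 1) (sampleComplexity q (n + 1)) :=
      Nat.sInf_mem (s := {m | Suffices q (n + 1) m}) (exists_suffices q hq (n + 1))
    exact Nat.sInf_le (suffices_length q n _ h1)

end Vale.Agent.Results.P321.MonotoneComplexity
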